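import Vale.Agent.P235.H141.CX.Defs
import Vale.Agent.P235.K5.H803.Split
import Vale.Agent.P235.Comp.PathSum
import Vale.Agent.P235.H873.Apex

set_option autoImplicit false
set_option linter.all false

/-!
# P235, line CX, row [CX5] (helper43): centres

Before every bag the centres are inserted, one vertex at a time; the new edges are inside
`Adh B t ∪ M t`.
-/

namespace Vale.Agent.P235.K5.GX.H43.CX

open SimpleGraph Vale.Agent.P235 Vale.Agent.P235.K5 Vale.Agent.P235.H141.CX

variable {k : ℕ} {V : Type}

/-- a side of a clique cut of a connected set is connected -/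
theorem side_conn {H : SimpleGraph V} {X Y : Set V}
    (hSc : ∀ u ∈ X, u ∈ Y → ∀ v ∈ X, v ∈ Y → u ≠ v → H.Adj u v)
    (hno : ∀ u ∈ X, u ∉ Y → ∀ v ∈ Y, v ∉ X → ¬ H.Adj u v)
    (h : (H.induce (X ∪ Y)).Preconnected) : (H.induce X).Preconnected := by
  rw [H803.preconn_iff] at h ⊢
  intro P hPX hne hcl
  by_cases hs : ∃ s ∈ P, s ∈ Y
  · obtain ⟨s, hsP, hsY⟩ := hs
    have hSP : ∀ v ∈ X, v ∈ Y → v ∈ P := by
      intro v hvX hvY
      by_cases hsv : s = v
      · exact hsv ▸ hsP
      · exact hcl s hsP v hvX (hSc s (hPX hsP) hsY v hvX hvY hsv)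
    have h1 := h (P ∪ Y) (Set.union_subset_union_left _ hPX) (hne.mono Set.subset_union_left) (by
      intro u hu v hv huv
      by_cases hvY : v ∈ Y
      · exact Or.inr hvY
      · have hvX : v ∈ X := hv.resolve_right hvY
        left
        rcases hu with hu | hu
        · exact hcl u hu v hvX huv
        · by_cases huX : u ∈ X
          · exact hcl u (hSP u huX hu) v hvX huv
          · exact absurd huv.symm (hno v hvX hvY u hu huX))
    refine hPX.antisymm fun v hv => ?_
    have h2 : v ∈ P ∪ Y := by
      rw [h1]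
      exact Or.inl hv
    rcases h2 with h2 | h2
    · exact h2
    · exact hSP v hv h2
  · push Not at hs
    have h1 := h P (hPX.trans Set.subset_union_left) hne (by
      intro u hu v hv huv
      by_cases hvX : v ∈ X
      · exact hcl u hu v hvX huv
      · exact absurd huv (hno u (hPX hu) (hs u hu) v (hv.resolve_left hvX) hvX))
    refine hPX.antisymm fun v hv => ?_
    rw [h1]
    exact Or.inl hv

/-- **the bags of a connected clique sum are connected** -/
theorem bag_conn {H : SimpleGraph V} {n : ℕ} {B : ℕ → Set V} (h : Glued k H n B)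
    (hH : H.Preconnected) : ∀ t < n, (H.induce (B t)).Preconnected := by
  have hun : ∀ m, Bef B (m + 1) = Bef B m ∪ B m := by
    intro m
    ext v
    constructor
    · rintro ⟨s, hs, hv⟩
      by_cases h : s = m
      · right
        rwa [h] at hv
      · left
        exact ⟨s, by omega, hv⟩
    · rintro (⟨s, hs, hv⟩ | hv)
      · exact ⟨s, by omega, hv⟩
      · exact ⟨m, by omega, hv⟩
  have h1 : ∀ m < n, (H.induce (Bef B (m + 1))).Preconnected →
      (H.induce (Bef B m)).Preconnected ∧ (H.induce (B m)).Preconnected := by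
    intro m hm hp
    rw [hun] at hp
    have hSc : ∀ u ∈ Bef B m, u ∈ B m → ∀ v ∈ Bef B m, v ∈ B m → u ≠ v → H.Adj u v :=
      fun u hu hu' v hv hv' huv => h.clique m hm u ⟨hu', hu⟩ v ⟨hv', hv⟩ huv
    refine ⟨side_conn hSc (fun u hu hu' v hv hv' huv => ?_) hp,
      side_conn (fun u hu hu' v hv hv' huv => hSc u hu' hu v hv' hv huv)
        (fun u hu hu' v hv hv' huv => ?_) (by rwa [Set.union_comm])⟩
    · exact h.sep m hm v u hv hv' hu hu' huv.symm
    · exact h.sep m hm u v hu hu' hv hv' huv
  have h2 : ∀ j, j ≤ n → (H.induce (Bef B (n - j))).Preconnected := by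
    intro j
    induction j with
    | zero =>
      intro _
      have h3 : Bef B (n - 0) = Set.univ := by
        ext v
        refine ⟨fun _ => trivial, fun _ => ?_⟩
        obtain ⟨s, hs, hv⟩ := h.cover v
        exact ⟨s, hs, hv⟩
      rw [h3, H803.preconn_iff]
      intro P _ hne hcl
      refine Set.eq_univ_of_forall fun v => ?_
      obtain ⟨p, hp⟩ := hne
      obtain ⟨w⟩ := hH p v
      have key : ∀ (a b : V) (w : H.Walk a b), a ∈ P → b ∈ P := by
        intro a b w
        induction w with
        | nil => exact id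
        | cons hab _ ih => exact fun ha => ih (hcl _ ha _ trivial hab)
      exact key _ _ w hp
    | succ j ih =>
      intro hj
      have h3 := ih (by omega)
      have h4 : n - j = (n - (j + 1)) + 1 := by omega
      rw [h4] at h3
      exact (h1 _ (by omega) h3).1
  intro t ht
  have h3 := h2 (n - (t + 1)) (by omega)
  have h4 : n - (n - (t + 1)) = t + 1 := by omega
  rw [h4] at h3
  exact (h1 t ht h3).2


/-! ### The pieces -/

/-- more edges inside a small set -/
theorem add_clique {C0 C : ℝ} (hC : 0 ≤ C) (hA : ∀ K : ℝ, 0 ≤ K → ∀ (V : Type) [Finite V]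
    (G : SimpleGraph V), G.Connected → ∀ X : Set V, X.Nonempty →
    (∀ u ∉ X, DistortionLE (G.induce (compSet G X u)) K) →
    DistortionLE G (C0 * (K + Real.log (X.ncard + 1)))) (hC0 : 0 ≤ C0) {j : ℕ}
    {W : Type} [Finite W] {P Q : SimpleGraph W} (hP : P.Connected) (h : DistortionLE P C)
    (hle : P ≤ Q) (N : Set W) (hQ : ∀ u v, Q.Adj u v → P.Adj u v ∨ (u ∈ N ∧ v ∈ N))
    (hN : N.ncard ≤ j) : DistortionLE Q (C0 * (C + Real.log (j + 2))) := by
  obtain ⟨w0⟩ := hP.nonempty
  have hQc : Q.Connected := hP.mono hle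
  have h1 := hA C hC W Q hQc (insert w0 N) ⟨w0, Or.inl rfl⟩ (by
    intro u hu
    have hoff : ∀ a : (compSet Q (insert w0 N) u), (a : W) ∉ N := by
      rintro ⟨a, p, hp⟩ haN
      exact hp a p.end_mem_support (Or.inr haN)
    refine DistortionLE.emb (G := P) (fun a : (compSet Q (insert w0 N) u) => (a : W))
      Subtype.val_injective (fun a b hab => ?_) hP (comp_connected hu) h
    rcases hQ a b hab with h2 | h2
    · exact h2
    · exact absurd h2.1 (hoff a))
  refine h1.mono (mul_le_mul_of_nonneg_left ?_ hC0)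
  have h2 : (insert w0 N).ncard ≤ j + 1 := (Set.ncard_insert_le w0 N).trans (by omega)
  have h3 : ((insert w0 N).ncard : ℝ) ≤ (j : ℝ) + 1 := by exact_mod_cast h2
  have h4 : Real.log ((insert w0 N).ncard + 1) ≤ Real.log (j + 2) :=
    Real.log_le_log (by positivity) (by linarith)
  linarith

/-- small pieces -/
theorem small_piece {C0 : ℝ} (hA : ∀ K : ℝ, 0 ≤ K → ∀ (V : Type) [Finite V]
    (G : SimpleGraph V), G.Connected → ∀ X : Set V, X.Nonempty →
    (∀ u ∉ X, DistortionLE (G.induce (compSet G X u)) K) →
    DistortionLE G (C0 * (K + Real.log (X.ncard + 1)))) (hC0 : 0 ≤ C0) {j : ℕ}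
    {W : Type} [Finite W] {Q : SimpleGraph W} (hQ : Q.Connected) (hN : Nat.card W ≤ j) :
    DistortionLE Q (C0 * Real.log (j + 2)) := by
  obtain ⟨w0⟩ := hQ.nonempty
  have h1 := hA 0 le_rfl W Q hQ Set.univ ⟨w0, trivial⟩ (fun u hu => (hu trivial).elim)
  refine h1.mono (mul_le_mul_of_nonneg_left ?_ hC0)
  rw [zero_add, Set.ncard_univ]
  have h3 : (Nat.card W : ℝ) ≤ (j : ℝ) := by exact_mod_cast hN
  exact Real.log_le_log (by positivity) (by linarith)

/-! ### The fine sequence -/

/-- a beginning of the fine sequence; `D` is the set of the vertices which are in it -/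
structure PC (H' : SimpleGraph V) (k : ℕ) (R : Set V → Prop) (n' : ℕ) (B' : ℕ → Set V)
    (D : Set V) : Prop where
  bef : Bef B' n' = D
  card : ∀ s < n', (Adh B' s).ncard ≤ k
  clique : ∀ s < n', ∀ u ∈ Adh B' s, ∀ v ∈ Adh B' s, u ≠ v → H'.Adj u v
  sep : ∀ s < n', ∀ u v, u ∈ B' s → u ∉ Bef B' s → v ∈ Bef B' s → v ∉ B' s → ¬ H'.Adj u v
  new : ∀ s < n', ∃ v ∈ B' s, v ∉ Bef B' s
  kind : ∀ s < n', R (B' s)
  one : ∀ s < n', 0 < s → ∃ t < s, Adh B' s ⊆ B' t ∧ (Adh B' s \ Adh B' t).Subsingleton

theorem bef_update {B : ℕ → Set V} {n s : ℕ} (hs : s ≤ n) (X : Set V) :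
    Bef (Function.update B n X) s = Bef B s := by
  ext v
  constructor
  · rintro ⟨i, hi, h⟩
    rw [Function.update_of_ne (by omega)] at h
    exact ⟨i, hi, h⟩
  · rintro ⟨i, hi, h⟩
    refine ⟨i, hi, ?_⟩
    rw [Function.update_of_ne (by omega)]
    exact h

theorem adh_update {B : ℕ → Set V} {n s : ℕ} (hs : s < n) (X : Set V) :
    Adh (Function.update B n X) s = Adh B s := by
  ext v
  change (v ∈ Function.update B n X s ∧ v ∈ Bef (Function.update B n X) s) ↔
    (v ∈ B s ∧ v ∈ Bef B s)
  rw [Function.update_of_ne (by omega), bef_update hs.le]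

theorem adh_last {B : ℕ → Set V} {n : ℕ} (X : Set V) :
    Adh (Function.update B n X) n = X ∩ Bef B n := by
  ext v
  change (v ∈ Function.update B n X n ∧ v ∈ Bef (Function.update B n X) n) ↔ _
  rw [Function.update_self, bef_update le_rfl]
  rfl

theorem PC.snoc {H' : SimpleGraph V} {k : ℕ} {R : Set V → Prop} {n' : ℕ}
    {B' : ℕ → Set V} {D : Set V} (h : PC H' k R n' B' D) (X : Set V) (h1 : (X ∩ D).ncard ≤ k)
    (h2 : ∀ u ∈ X ∩ D, ∀ v ∈ X ∩ D, u ≠ v → H'.Adj u v)
    (h3 : ∀ u v, u ∈ X → u ∉ D → v ∈ D → v ∉ X → ¬ H'.Adj u v) (h4 : ∃ v ∈ X, v ∉ D)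
    (h5 : R X)
    (h6 : 0 < n' → ∃ t < n', X ∩ D ⊆ B' t ∧ ((X ∩ D) \ Adh B' t).Subsingleton) :
    PC H' k R (n' + 1) (Function.update B' n' X) (D ∪ X) := by
  have hBn : Function.update B' n' X n' = X := Function.update_self _ _ _
  have hB : ∀ s < n', Function.update B' n' X s = B' s := fun s hs =>
    Function.update_of_ne (by omega) _ _
  have hbn : Bef (Function.update B' n' X) n' = D := by rw [bef_update le_rfl, h.bef]
  have hadn : Adh (Function.update B' n' X) n' = X ∩ D := by rw [adh_last, h.bef]
  have hcase : ∀ s < n' + 1, s < n' ∨ s = n' := fun s hs => by omega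
  constructor
  · ext v
    constructor
    · rintro ⟨s, hs, hv⟩
      rcases hcase s hs with h' | rfl
      · rw [hB s h'] at hv
        left
        rw [← h.bef]
        exact ⟨s, h', hv⟩
      · rw [hBn] at hv
        exact Or.inr hv
    · rintro (hv | hv)
      · rw [← h.bef] at hv
        obtain ⟨s, hs, hv⟩ := hv
        exact ⟨s, by omega, by rw [hB s hs]; exact hv⟩
      · exact ⟨n', by omega, by rw [hBn]; exact hv⟩
  · intro s hs
    rcases hcase s hs with h' | rfl
    · rw [adh_update h']; exact h.card s h'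
    · rw [hadn]; exact h1
  · intro s hs
    rcases hcase s hs with h' | rfl
    · rw [adh_update h']; exact h.clique s h'
    · rw [hadn]; exact h2
  · intro s hs u v
    rcases hcase s hs with h' | rfl
    · rw [hB s h', bef_update h'.le]; exact h.sep s h' u v
    · rw [hBn, hbn]; exact h3 u v
  · intro s hs
    rcases hcase s hs with h' | rfl
    · rw [hB s h', bef_update h'.le]; exact h.new s h'
    · rw [hBn, hbn]; exact h4
  · intro s hs
    rcases hcase s hs with h' | rfl
    · rw [hB s h']; exact h.kind s h'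
    · rw [hBn]; exact h5
  · intro s hs h0
    rcases hcase s hs with h' | rfl
    · obtain ⟨t, ht, g1, g2⟩ := h.one s h' h0
      refine ⟨t, ht, ?_, ?_⟩
      · rw [adh_update h', hB t (by omega)]; exact g1
      · rw [adh_update h', adh_update (by omega)]; exact g2
    · obtain ⟨t, ht, g1, g2⟩ := h6 h0
      refine ⟨t, ht, ?_, ?_⟩
      · rw [hadn, hB t ht]; exact g1
      · rw [hadn, adh_update ht]; exact g2

/-- the enumeration of a finite set -/
theorem enum [Finite V] (v0 : V) (S : Set V) : ∃ v : ℕ → V, (∀ i < S.ncard, v i ∈ S) ∧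
    (∀ i < S.ncard, ∀ j < S.ncard, v i = v j → i = j) ∧ ∀ x ∈ S, ∃ i < S.ncard, v i = x := by
  classical
  have hf : S.Finite := Set.toFinite S
  have hc : hf.toFinset.card = S.ncard := (Set.ncard_eq_toFinset_card S hf).symm
  let e := hf.toFinset.equivFinOfCardEq hc
  refine ⟨fun i => if hi : i < S.ncard then ((e.symm ⟨i, hi⟩ : hf.toFinset) : V) else v0,
    fun i hi => ?_, fun i hi j hj hij => ?_, fun x hx => ?_⟩
  · dsimp only
    rw [dif_pos hi]
    exact hf.mem_toFinset.1 (e.symm ⟨i, hi⟩).2
  · dsimp only at hij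
    rw [dif_pos hi, dif_pos hj] at hij
    have := e.symm.injective (Subtype.ext hij)
    exact congrArg Fin.val this
  · refine ⟨(e ⟨x, hf.mem_toFinset.2 hx⟩).1, (e ⟨x, hf.mem_toFinset.2 hx⟩).2, ?_⟩
    dsimp only
    rw [dif_pos (e ⟨x, hf.mem_toFinset.2 hx⟩).2]
    simp

/-- the first `i` new centres -/
def NN (v : ℕ → V) (i : ℕ) : Set V := {x | ∃ l < i, v l = x}

theorem NN_zero (v : ℕ → V) : NN v 0 = ∅ := by
  ext x
  constructor
  · rintro ⟨l, hl, _⟩; omega
  · intro h; exact h.elim

theorem NN_succ (v : ℕ → V) (i : ℕ) : NN v (i + 1) = NN v i ∪ {v i} := by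
  ext x
  constructor
  · rintro ⟨l, hl, hx⟩
    by_cases h : l = i
    · right; rw [← hx, h]; rfl
    · left; exact ⟨l, by omega, hx⟩
  · rintro (⟨l, hl, hx⟩ | hx)
    · exact ⟨l, by omega, hx⟩
    · exact ⟨i, by omega, hx.symm⟩

theorem NN_card (v : ℕ → V) (i : ℕ) : (NN v i).ncard ≤ i := by
  have e1 : NN v i = v '' (Set.Iio i) := by
    ext x
    constructor
    · rintro ⟨l, hl, hx⟩
      exact ⟨l, hl, hx⟩
    · rintro ⟨l, hl, hx⟩
      exact ⟨l, hl, hx⟩
  rw [e1]
  refine (Set.ncard_image_le (Set.finite_Iio i)).trans ?_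
  rw [Set.ncard_eq_toFinset_card' (Set.Iio i)]
  simp

/-- **the fine sequence** -/
theorem chain [Finite V] {H : SimpleGraph V} {n j : ℕ} {B : ℕ → Set V} (M : ℕ → Set V)
    (h : Glued k H n B) (hM : ∀ t < n, M t ⊆ B t ∧ (M t).ncard ≤ j)
    (h1 : ∀ u < n, 0 < u → ∃ t < u, Adh B u ⊆ B t ∧ (Adh B u \ (Adh B t ∪ M t)).Subsingleton) :
    ∃ (H' : SimpleGraph V) (n' : ℕ) (B' : ℕ → Set V), H ≤ H' ∧
      (∀ t < n, ∀ u ∈ B t, ∀ v ∈ B t, H'.Adj u v →
        H.Adj u v ∨ (u ∈ Adh B t ∪ M t ∧ v ∈ Adh B t ∪ M t)) ∧
      Glued (k + j) H' n' B' ∧ (∀ s < n', ∃ v ∈ B' s, v ∉ Bef B' s) ∧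
      (∀ s < n', (∃ t < n, B' s = B t) ∨ (B' s).ncard ≤ k + j) ∧
      ∀ u < n', 0 < u → ∃ t < u, Adh B' u ⊆ B' t ∧ (Adh B' u \ Adh B' t).Subsingleton := by
  classical
  rcases isEmpty_or_nonempty V with hV | ⟨⟨v0⟩⟩
  · exact ⟨H, 0, fun _ => ∅, le_rfl, fun t _ u => (hV.false u).elim,
      ⟨fun v => (hV.false v).elim, by omega, by omega, by omega⟩, by omega, by omega, by omega⟩
  obtain ⟨S, hS⟩ : ∃ S : ℕ → Set V, S = fun t => Adh B t ∪ M t := ⟨_, rfl⟩
  have hSB : ∀ t < n, S t ⊆ B t := by
    intro t ht x hx
    rw [hS] at hx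
    rcases hx with hx | hx
    · exact hx.1
    · exact (hM t ht).1 hx
  obtain ⟨H', hH'⟩ : ∃ H' : SimpleGraph V, ∀ a b, H'.Adj a b ↔ H.Adj a b ∨
      (a ≠ b ∧ ∃ t < n, a ∈ S t ∧ b ∈ S t) :=
    ⟨{ Adj := fun a b => H.Adj a b ∨ (a ≠ b ∧ ∃ t < n, a ∈ S t ∧ b ∈ S t)
       symm := ⟨fun a b hab => by
        rcases hab with h1 | ⟨h1, t, ht, h2, h3⟩
        · exact Or.inl h1.symm
        · exact Or.inr ⟨h1.symm, t, ht, h3, h2⟩⟩
       loopless := ⟨fun a hab => by
        rcases hab with h1 | ⟨h1, _⟩
        · exact H.irrefl h1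
        · exact h1 rfl⟩ }, fun a b => Iff.rfl⟩
  have hle : H ≤ H' := fun a b hab => (hH' a b).2 (Or.inl hab)
  -- new edges of a vertex which is new in `t` stay in `B t`
  have hsep : ∀ t < n, ∀ u v, u ∈ B t → u ∉ Bef B t → v ∈ Bef B t → v ∉ B t → ¬ H'.Adj u v := by
    intro t ht u v hu hu' hv hv' hadj
    rcases (hH' u v).1 hadj with h2 | ⟨hne, t', ht', h2, h3⟩
    · exact h.sep t ht u v hu hu' hv hv' h2
    · have h4 := hSB t' ht' h2
      have h5 := hSB t' ht' h3
      have h6 : t ≤ t' := by
        by_contra hlt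
        push Not at hlt
        exact hu' ⟨t', hlt, h4⟩
      rcases h6.lt_or_eq with h7 | h7
      · obtain ⟨s, hs, hvs⟩ := hv
        exact h.sep t ht u v hu hu' ⟨s, hs, hvs⟩ hv'
          (h.clique t' ht' u ⟨h4, t, h7, hu⟩ v ⟨h5, s, by omega, hvs⟩ hne)
      · rw [← h7] at h5
        exact hv' h5
  obtain ⟨R, hR⟩ : ∃ R : Set V → Prop, R = fun X => (∃ t < n, X = B t) ∨ X.ncard ≤ k + j :=
    ⟨_, rfl⟩
  have main : ∀ t ≤ n, ∃ (n' : ℕ) (B' : ℕ → Set V), PC H' (k + j) R n' B' (Bef B t) ∧
      ∀ t' < t, ∀ A ⊆ B t', (A \ S t').Subsingleton →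
        A = ∅ ∨ ∃ s < n', A ⊆ B' s ∧ (A \ Adh B' s).Subsingleton := by
    intro t
    induction t with
    | zero =>
      intro _
      refine ⟨0, fun _ => ∅, ⟨?_, by omega, by omega, by omega, by omega, by omega, by omega⟩,
        by omega⟩
      ext x
      constructor <;> rintro ⟨s, hs, _⟩ <;> omega
    | succ t ih =>
      intro ht1
      have ht : t < n := by omega
      obtain ⟨n', B', hP, hloc⟩ := ih (by omega)
      -- the start
      have start : 0 < n' → ∃ s < n', Adh B t ⊆ B' s ∧ (Adh B t \ Adh B' s).Subsingleton := by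
        intro h0
        have hem : Adh B t = ∅ → ∃ s < n', Adh B t ⊆ B' s ∧
            (Adh B t \ Adh B' s).Subsingleton := by
          intro he
          rw [he]
          exact ⟨0, h0, Set.empty_subset _, by rw [Set.empty_diff]; exact Set.subsingleton_empty⟩
        rcases Nat.eq_zero_or_pos t with ht0 | ht0
        · apply hem
          ext x
          constructor
          · rintro ⟨_, s, hs, _⟩; omega
          · intro hx; exact hx.elim
        · obtain ⟨t'', ht'', g1, g2⟩ := h1 t ht ht0
          have g2' : (Adh B t \ S t'').Subsingleton := by rw [hS]; exact g2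
          rcases hloc t'' ht'' (Adh B t) g1 g2' with g3 | g3
          · exact hem g3
          · exact g3
      obtain ⟨v, b1, b2, b3⟩ := enum v0 (M t \ Bef B t)
      obtain ⟨m, hm⟩ : ∃ m, m = (M t \ Bef B t).ncard := ⟨_, rfl⟩
      rw [← hm] at b1 b2 b3
      have hmj : m ≤ j := by
        rw [hm]
        exact (Set.ncard_le_ncard Set.diff_subset (Set.toFinite _)).trans (hM t ht).2
      have hvB : ∀ i < m, v i ∈ B t := fun i hi => (hM t ht).1 (b1 i hi).1
      have hvD : ∀ i < m, v i ∉ Bef B t ∪ NN v i := by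
        rintro i hi (hx | ⟨l, hl, hx⟩)
        · exact (b1 i hi).2 hx
        · have := b2 l (by omega) i hi hx
          omega
      have hNB : ∀ i ≤ m, Adh B t ∪ NN v i ⊆ B t := by
        rintro i hi x (hx | ⟨l, hl, hx⟩)
        · exact hx.1
        · rw [← hx]; exact hvB l (by omega)
      have hNS : ∀ i ≤ m, Adh B t ∪ NN v i ⊆ S t := by
        rintro i hi x (hx | ⟨l, hl, hx⟩)
        · rw [hS]; exact Or.inl hx
        · rw [hS]; right; rw [← hx]; exact (b1 l (by omega)).1
      have hSN : S t = Adh B t ∪ NN v m := by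
        refine Set.Subset.antisymm ?_ (hNS m le_rfl)
        rw [hS]
        rintro x (hx | hx)
        · exact Or.inl hx
        · by_cases hxb : x ∈ Bef B t
          · exact Or.inl ⟨(hM t ht).1 hx, hxb⟩
          · exact Or.inr (b3 x ⟨hx, hxb⟩)
      have hNc : ∀ i ≤ m, (Adh B t ∪ NN v i).ncard ≤ k + j := by
        intro i hi
        exact (Set.ncard_union_le _ _).trans (Nat.add_le_add (h.card t ht)
          ((NN_card v i).trans (by omega)))
      have hNcl : ∀ i ≤ m, ∀ a ∈ Adh B t ∪ NN v i, ∀ b ∈ Adh B t ∪ NN v i, a ≠ b →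
          H'.Adj a b := by
        intro i hi a ha b hb hab
        exact (hH' a b).2 (Or.inr ⟨hab, t, ht, hNS i hi ha, hNS i hi hb⟩)
      have hsub1 : ∀ i ≤ m, 0 < i →
          ((Adh B t ∪ NN v i) \ (Adh B t ∪ NN v (i - 1))).Subsingleton := by
        intro i hi h0
        have e1 : NN v i = NN v (i - 1) ∪ {v (i - 1)} := by
          rw [← NN_succ, show i - 1 + 1 = i by omega]
        have e2 : ∀ x ∈ (Adh B t ∪ NN v i) \ (Adh B t ∪ NN v (i - 1)), x = v (i - 1) := by
          rintro x ⟨hx | hx, hx'⟩
          · exact (hx' (Or.inl hx)).elim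
          · rw [e1] at hx
            rcases hx with hx | hx
            · exact (hx' (Or.inr hx)).elim
            · exact hx
        intro x hx y hy
        rw [e2 x hx, e2 y hy]
      -- the chain
      have inner : ∀ i ≤ m, ∃ (n'' : ℕ) (B'' : ℕ → Set V),
          PC H' (k + j) R n'' B'' (Bef B t ∪ NN v i) ∧ n' ≤ n'' ∧
          (∀ s < n', B'' s = B' s ∧ Adh B'' s = Adh B' s) ∧ (i = 0 → n'' = n') ∧
          (0 < i → ∃ s < n'', B'' s = Adh B t ∪ NN v i ∧
            Adh B'' s = Adh B t ∪ NN v (i - 1)) := by
        intro i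
        induction i with
        | zero =>
          intro _
          refine ⟨n', B', ?_, le_rfl, fun s _ => ⟨rfl, rfl⟩, fun _ => rfl, by omega⟩
          rw [NN_zero, Set.union_empty]
          exact hP
        | succ i ihi =>
          intro hi
          obtain ⟨n'', B'', hQ, hnn, hag, hz, hl⟩ := ihi (by omega)
          have him : i < m := by omega
          have hX : (Adh B t ∪ NN v (i + 1)) ∩ (Bef B t ∪ NN v i) = Adh B t ∪ NN v i := by
            ext x
            constructor
            · rintro ⟨hx | hx, hx'⟩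
              · exact Or.inl hx
              · rw [NN_succ] at hx
                rcases hx with hx | hx
                · exact Or.inr hx
                · have hx2 : x = v i := hx
                  rw [hx2] at hx'
                  exact (hvD i him hx').elim
            · rintro (hx | hx)
              · exact ⟨Or.inl hx, Or.inl hx.2⟩
              · exact ⟨Or.inr (by rw [NN_succ]; exact Or.inl hx), Or.inr hx⟩
          have hst := hQ.snoc (Adh B t ∪ NN v (i + 1))
            (by rw [hX]; exact hNc i him.le)
            (by rw [hX]; exact hNcl i him.le)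
            (by
              intro a b ha haD hbD hbX hadj
              have hai : a = v i := by
                rcases ha with ha | ha
                · exact (haD (Or.inl ha.2)).elim
                · rw [NN_succ] at ha
                  rcases ha with ha | ha
                  · exact (haD (Or.inr ha)).elim
                  · exact ha
              have hbD' : b ∈ Bef B t := by
                rcases hbD with hbD | hbD
                · exact hbD
                · exact (hbX (Or.inr (by rw [NN_succ]; exact Or.inl hbD))).elim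
              exact hsep t ht a b (by rw [hai]; exact hvB i him)
                (by rw [hai]; exact (b1 i him).2) hbD'
                (fun hbB => hbX (Or.inl ⟨hbB, hbD'⟩)) hadj)
            ⟨v i, Or.inr (by rw [NN_succ]; exact Or.inr rfl), hvD i him⟩
            (by rw [hR]; exact Or.inr (hNc (i + 1) hi))
            (by
              intro h0
              rw [hX]
              rcases Nat.eq_zero_or_pos i with hi0 | hi0
              · have hn := hz hi0
                rw [hn] at h0
                obtain ⟨s, hs, g1, g2⟩ := start h0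
                refine ⟨s, by omega, ?_, ?_⟩
                · rw [(hag s hs).1, hi0, NN_zero, Set.union_empty]; exact g1
                · rw [(hag s hs).2, hi0, NN_zero, Set.union_empty]; exact g2
              · obtain ⟨s, hs, g1, g2⟩ := hl hi0
                refine ⟨s, hs, by rw [g1], ?_⟩
                rw [g2]
                exact hsub1 i him.le hi0)
          refine ⟨n'' + 1, Function.update B'' n'' (Adh B t ∪ NN v (i + 1)), ?_, by omega,
            fun s hs => ?_, by omega, fun _ => ⟨n'', by omega, Function.update_self _ _ _, ?_⟩⟩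
          · have hset : (Bef B t ∪ NN v (i + 1)) =
                (Bef B t ∪ NN v i) ∪ (Adh B t ∪ NN v (i + 1)) := by
              ext x
              constructor
              · rintro (hx | hx)
                · exact Or.inl (Or.inl hx)
                · exact Or.inr (Or.inr hx)
              · rintro ((hx | hx) | (hx | hx))
                · exact Or.inl hx
                · exact Or.inr (by rw [NN_succ]; exact Or.inl hx)
                · exact Or.inl hx.2
                · exact Or.inr hx
            rw [hset]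
            exact hst
          · rw [Function.update_of_ne (by omega), adh_update (by omega)]
            exact hag s hs
          · rw [adh_last, hQ.bef, hX]
            rfl
      obtain ⟨n'', B'', hQ, hnn, hag, hz, hl⟩ := inner m le_rfl
      have hBs : Bef B (t + 1) = Bef B t ∪ B t := by
        ext x
        constructor
        · rintro ⟨s, hs, hx⟩
          by_cases hsM : s = t
          · right; rw [← hsM]; exact hx
          · left; exact ⟨s, by omega, hx⟩
        · rintro (⟨s, hs, hx⟩ | hx)
          · exact ⟨s, by omega, hx⟩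
          · exact ⟨t, by omega, hx⟩
      -- the place of `S t`
      have hplace : 0 < n'' → ∃ s < n'', S t ⊆ B'' s ∧ (S t \ Adh B'' s).Subsingleton := by
        intro h0
        rw [hSN]
        rcases Nat.eq_zero_or_pos m with hm0 | hm0
        · have hn := hz hm0
          rw [hn] at h0
          obtain ⟨s, hs, g1, g2⟩ := start h0
          refine ⟨s, by omega, ?_, ?_⟩
          · rw [(hag s hs).1, hm0, NN_zero, Set.union_empty]; exact g1
          · rw [(hag s hs).2, hm0, NN_zero, Set.union_empty]; exact g2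
        · obtain ⟨s, hs, g1, g2⟩ := hl hm0
          refine ⟨s, hs, by rw [g1], ?_⟩
          rw [g2]
          exact hsub1 m le_rfl hm0
      by_cases hnew : ∃ x ∈ B t, x ∉ Bef B t ∪ NN v m
      · have hX : B t ∩ (Bef B t ∪ NN v m) = S t := by
          rw [hSN]
          ext x
          constructor
          · rintro ⟨hx, hx' | hx'⟩
            · exact Or.inl ⟨hx, hx'⟩
            · exact Or.inr hx'
          · rintro (hx | hx)
            · exact ⟨hx.1, Or.inl hx.2⟩
            · exact ⟨hNB m le_rfl (Or.inr hx), Or.inr hx⟩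
        have hst := hQ.snoc (B t)
          (by rw [hX, hSN]; exact hNc m le_rfl)
          (by rw [hX, hSN]; exact hNcl m le_rfl)
          (by
            intro a b ha haD hbD hbX hadj
            have hbD' : b ∈ Bef B t := by
              rcases hbD with hbD | hbD
              · exact hbD
              · exact (hbX (hNB m le_rfl (Or.inr hbD))).elim
            exact hsep t ht a b ha (fun hh => haD (Or.inl hh)) hbD' hbX hadj)
          hnew (by rw [hR]; exact Or.inl ⟨t, ht, rfl⟩)
          (by rw [hX]; exact hplace)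
        refine ⟨n'' + 1, Function.update B'' n'' (B t), ?_, fun t' ht' A hA hAS => ?_⟩
        · have hset : Bef B (t + 1) = (Bef B t ∪ NN v m) ∪ B t := by
            rw [hBs]
            ext x
            constructor
            · rintro (hx | hx)
              · exact Or.inl (Or.inl hx)
              · exact Or.inr hx
            · rintro ((hx | hx) | hx)
              · exact Or.inl hx
              · exact Or.inr (hNB m le_rfl (Or.inr hx))
              · exact Or.inr hx
          rw [hset]
          exact hst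
        · by_cases htt : t' < t
          · rcases hloc t' htt A hA hAS with g | ⟨s, hs, g1, g2⟩
            · exact Or.inl g
            · refine Or.inr ⟨s, by omega, ?_, ?_⟩
              · rw [Function.update_of_ne (by omega), (hag s hs).1]; exact g1
              · rw [adh_update (by omega), (hag s hs).2]; exact g2
          · have htt' : t' = t := by omega
            subst htt'
            refine Or.inr ⟨n'', by omega, ?_, ?_⟩
            · rw [Function.update_self]; exact hA
            · rw [adh_last, hQ.bef, hX]; exact hAS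
      · push Not at hnew
        refine ⟨n'', B'', ?_, fun t' ht' A hA hAS => ?_⟩
        · have hset : Bef B (t + 1) = Bef B t ∪ NN v m := by
            rw [hBs]
            ext x
            constructor
            · rintro (hx | hx)
              · exact Or.inl hx
              · exact hnew x hx
            · rintro (hx | hx)
              · exact Or.inl hx
              · exact Or.inr (hNB m le_rfl (Or.inr hx))
          rw [hset]
          exact hQ
        · by_cases htt : t' < t
          · rcases hloc t' htt A hA hAS with g | ⟨s, hs, g1, g2⟩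
            · exact Or.inl g
            · refine Or.inr ⟨s, by omega, ?_, ?_⟩
              · rw [(hag s hs).1]; exact g1
              · rw [(hag s hs).2]; exact g2
          · have htt' : t' = t := by omega
            subst htt'
            have hBS : B t' ⊆ S t' := by
              intro x hx
              rw [hSN]
              rcases hnew x hx with hx' | hx'
              · exact Or.inl ⟨hx, hx'⟩
              · exact Or.inr hx'
            rcases Nat.eq_zero_or_pos n'' with h0 | h0
            · left
              ext x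
              constructor
              · intro hx
                have h2 : x ∈ Bef B'' n'' := by
                  rw [hQ.bef]
                  exact hnew x (hA hx)
                obtain ⟨s, hs, _⟩ := h2
                omega
              · intro hx; exact hx.elim
            · right
              obtain ⟨s, hs, g1, g2⟩ := hplace h0
              refine ⟨s, hs, (hA.trans hBS).trans g1, g2.anti ?_⟩
              exact Set.diff_subset_diff_left (hA.trans hBS)
  obtain ⟨n', B', hP, -⟩ := main n le_rfl
  refine ⟨H', n', B', hle, ?_, ⟨?_, hP.card, hP.clique, hP.sep⟩, hP.new, ?_, hP.one⟩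
  · intro t ht u hu v hv hadj
    rcases (hH' u v).1 hadj with h2 | ⟨hne, t', ht', h2, h3⟩
    · exact Or.inl h2
    · have h4 := hSB t' ht' h2
      have h5 := hSB t' ht' h3
      rcases Nat.lt_trichotomy t t' with h7 | h7 | h7
      · exact Or.inl (h.clique t' ht' u ⟨h4, t, h7, hu⟩ v ⟨h5, t, h7, hv⟩ hne)
      · right
        rw [← h7, hS] at h2 h3
        exact ⟨h2, h3⟩
      · exact Or.inr ⟨Or.inl ⟨hu, t', h7, h4⟩, Or.inl ⟨hv, t', h7, h5⟩⟩
  · intro x
    obtain ⟨t, ht, hx⟩ := h.cover x
    have h2 : x ∈ Bef B' n' := by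
      rw [hP.bef]
      exact ⟨t, ht, hx⟩
    exact h2
  · intro s hs
    have := hP.kind s hs
    rw [hR] at this
    exact this

/-! ### The theorem -/

/-- **[CX5]** the theorem with centres: clique sums of graphs with `c₁ ≤ C` such that every gluing
clique has at most one vertex outside the root clique and the at most `k` centres of the piece it is
glued to -/
def CentreStmt : Prop :=
  ∀ (C : ℝ) (k : ℕ), 1 ≤ C → ∃ K : ℝ, 1 ≤ K ∧ ∀ (V : Type) [Finite V] (G H : SimpleGraph V)
    (n : ℕ) (B M : ℕ → Set V), G ≤ H → G.Connected → Glued k H n B →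
      (∀ t < n, M t ⊆ B t ∧ (M t).ncard ≤ k) → (∀ t < n, DistortionLE (H.induce (B t)) C) →
      (∀ u < n, 0 < u → ∃ t < u, Adh B u ⊆ B t ∧ (Adh B u \ (Adh B t ∪ M t)).Subsingleton) →
        DistortionLE G K

theorem centre (hX : CXStmt) : CentreStmt := by
  intro C k hC
  obtain ⟨C0, hA0⟩ := H873.apex_log
  obtain ⟨C1, hC1, hA⟩ : ∃ C1 : ℝ, 0 ≤ C1 ∧ ∀ K : ℝ, 0 ≤ K → ∀ (V : Type) [Finite V]
      (G : SimpleGraph V), G.Connected → ∀ X : Set V, X.Nonempty →
      (∀ u ∉ X, DistortionLE (G.induce (compSet G X u)) K) →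
      DistortionLE G (C1 * (K + Real.log (X.ncard + 1))) := by
    refine ⟨max C0 0, le_max_right _ _, fun K hK V _ G hG X hX' hc => ?_⟩
    refine (hA0 K hK V G hG X hX' hc).mono (mul_le_mul_of_nonneg_right (le_max_left _ _) ?_)
    have : 0 ≤ Real.log ((X.ncard : ℝ) + 1) := Real.log_nonneg (by
      have : (0 : ℝ) ≤ X.ncard := Nat.cast_nonneg _
      linarith)
    linarith
  obtain ⟨K1, hK1⟩ : ∃ K1 : ℝ, K1 = max 1 (C1 * (C + Real.log (((k + k : ℕ) : ℝ) + 2))) := ⟨_, rfl⟩
  obtain ⟨K, hK, HK⟩ := hX K1 (k + k) (by rw [hK1]; exact le_max_left _ _)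
  refine ⟨K, hK, fun V _ G H n B M hle hG h hM hD h1 => ?_⟩
  obtain ⟨H', n', B', g1, g2, g3, g4, g5, g6⟩ := chain M h hM h1
  have hH : H.Connected := hG.mono hle
  have hH' : H'.Connected := hH.mono g1
  have hlog : 0 ≤ Real.log (((k + k : ℕ) : ℝ) + 2) := Real.log_nonneg (by
    have : (0 : ℝ) ≤ ((k + k : ℕ) : ℝ) := Nat.cast_nonneg _
    linarith)
  refine HK V G H' n' B' (hle.trans g1) hG g3 g4 (fun s hs => ?_) g6
  obtain ⟨x, hx, -⟩ := g4 s hs
  rcases g5 s hs with ⟨t, ht, e⟩ | hsm
  · have hconn : (H.induce (B t)).Connected := by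
      haveI : Nonempty (B t) := ⟨⟨x, by rw [← e]; exact hx⟩⟩
      exact ⟨bag_conn h hH.preconnected t ht⟩
    rw [e]
    refine (add_clique (by linarith) hA hC1 (j := k + k) hconn (hD t ht)
      (fun a b hab => g1 hab) {a | (a : V) ∈ Adh B t ∪ M t} (fun u v huv => ?_) ?_).mono ?_
    · exact g2 t ht u u.2 v v.2 huv
    · refine le_trans ?_ ((Set.ncard_union_le (Adh B t) (M t)).trans
        (Nat.add_le_add (h.card t ht) (hM t ht).2))
      refine Set.ncard_le_ncard_of_injOn (fun a : B t => (a : V)) (fun a ha => ha)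
        (Set.injOn_of_injective Subtype.val_injective) (Set.toFinite _)
    · rw [hK1]; exact le_max_right _ _
  · have hconn : (H'.induce (B' s)).Connected := by
      haveI : Nonempty (B' s) := ⟨⟨x, hx⟩⟩
      exact ⟨bag_conn g3 hH'.preconnected s hs⟩
    refine (small_piece hA hC1 (j := k + k) hconn (by
      rw [Nat.card_coe_set_eq]; exact hsm)).mono ?_
    rw [hK1]
    refine le_trans (mul_le_mul_of_nonneg_left ?_ hC1) (le_max_right _ _)
    linarith

end Vale.Agent.P235.K5.GX.H43.CX
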