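import Vale.Agent.P235.K5.SX.H803.Refine

/-!
P235, K5 line, GX, row [G4] (helper43, on top of helper803's proof of [S5b]).  A sum over cliques with
at most three vertices whose pieces are of type P or of treewidth at most `w` (type T): the T pieces
are cut into one-vertex steps, before each P piece its marks are inserted, one vertex at a time.
-/

set_option autoImplicit false
set_option linter.all false

namespace Vale.Agent.P235.K5.GX.H43

open SimpleGraph Vale.Agent.P235 Vale.Agent.P235.K5
open Vale.Agent.P235.K5.SX.H803 (ElimStmt)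

variable {V : Type}

/-- a beginning of the fine sequence; `D` is the set of the vertices which are in it -/
structure Pref (H' : SimpleGraph V) (k : ℕ) (ty : ℕ → Prop) (B M : ℕ → Set V) (c Mx n' : ℕ)
    (B' : ℕ → Set V) (φ : ℕ → ℕ) (τ : ℕ → Prop) (D : Set V) : Prop where
  bef : Bef B' n' = D
  card : ∀ s < n', (Adh B' s).ncard ≤ k
  clique : ∀ s < n', ∀ u ∈ Adh B' s, ∀ v ∈ Adh B' s, u ≠ v → H'.Adj u v
  sep : ∀ s < n', ∀ u v, u ∈ B' s → u ∉ Bef B' s → v ∈ Bef B' s → v ∉ B' s → ¬ H'.Adj u v
  lt : ∀ s < n', φ s < Mx
  mono : ∀ s s', s ≤ s' → s' < n' → φ s ≤ φ s'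
  new : ∀ s < n', ∃ v ∈ B' s, v ∉ Bef B' s
  sub : ∀ s < n', B' s ⊆ B (φ s)
  typ : ∀ s < n', (¬ τ s ∧ ¬ ty (φ s) ∧ B' s = B (φ s)) ∨
    (τ s ∧ ∃ v, v ∉ Bef B' s ∧ B' s = insert v (Adh B' s))
  ord : ∀ s < n', ∀ s' < s, φ s' = φ s → τ s → τ s'
  cov : ∀ t < c, ∀ v ∈ B t, ∃ s < n', φ s ≤ t ∧ v ∈ B' s
  mrk : ∀ t < c, ¬ ty t → M t ⊆ Adh B t ∨ ∃ s < n', φ s = t ∧ τ s ∧ M t ⊆ B' s

theorem bef_update {B : ℕ → Set V} {n s : ℕ} (hs : s ≤ n) (X : Set V) :
    Bef (Function.update B n X) s = Bef B s := by
  ext v
  constructor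
  · rintro ⟨i, hi, h⟩
    rw [Function.update_of_ne (by omega)] at h
    exact ⟨i, hi, h⟩
  · rintro ⟨i, hi, h⟩
    refine ⟨i, hi, ?_⟩
    rw [Function.update_of_ne (by omega)]
    exact h

theorem adh_update {B : ℕ → Set V} {n s : ℕ} (hs : s < n) (X : Set V) :
    Adh (Function.update B n X) s = Adh B s := by
  ext v
  change (v ∈ Function.update B n X s ∧ v ∈ Bef (Function.update B n X) s) ↔
    (v ∈ B s ∧ v ∈ Bef B s)
  rw [Function.update_of_ne (by omega), bef_update hs.le]

theorem Pref.snoc {H' : SimpleGraph V} {k : ℕ} {ty : ℕ → Prop} {B M : ℕ → Set V} {c m n' : ℕ}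
    {B' : ℕ → Set V} {φ : ℕ → ℕ} {τ : ℕ → Prop} {D : Set V}
    (h : Pref H' k ty B M c (m + 1) n' B' φ τ D)
    (X : Set V) (p : Prop) (h1 : (X ∩ D).ncard ≤ k)
    (h2 : ∀ u ∈ X ∩ D, ∀ v ∈ X ∩ D, u ≠ v → H'.Adj u v)
    (h3 : ∀ u v, u ∈ X → u ∉ D → v ∈ D → v ∉ X → ¬ H'.Adj u v) (h4 : ∃ v ∈ X, v ∉ D)
    (h5 : X ⊆ B m)
    (h6 : (¬ p ∧ ¬ ty m ∧ X = B m) ∨ (p ∧ ∃ v, v ∉ D ∧ X = insert v (X ∩ D)))
    (h7 : p → ∀ s < n', φ s = m → τ s) :
    Pref H' k ty B M c (m + 1) (n' + 1) (Function.update B' n' X) (Function.update φ n' m)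
      (Function.update τ n' p) (D ∪ X) := by
  have hBn : Function.update B' n' X n' = X := Function.update_self _ _ _
  have hφn : Function.update φ n' m n' = m := Function.update_self _ _ _
  have hτn : Function.update τ n' p n' = p := Function.update_self _ _ _
  have hB : ∀ s < n', Function.update B' n' X s = B' s := fun s hs =>
    Function.update_of_ne (by omega) _ _
  have hφ : ∀ s < n', Function.update φ n' m s = φ s := fun s hs =>
    Function.update_of_ne (by omega) _ _
  have hτ : ∀ s < n', Function.update τ n' p s = τ s := fun s hs =>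
    Function.update_of_ne (by omega) _ _
  have hbn : Bef (Function.update B' n' X) n' = D := by rw [bef_update le_rfl, h.bef]
  have hadn : Adh (Function.update B' n' X) n' = X ∩ D := by
    ext v
    change (v ∈ Function.update B' n' X n' ∧ v ∈ Bef (Function.update B' n' X) n') ↔ _
    rw [hBn, hbn]
    rfl
  have hcase : ∀ s < n' + 1, s < n' ∨ s = n' := fun s hs => by omega
  constructor
  · ext v
    constructor
    · rintro ⟨s, hs, hv⟩
      rcases hcase s hs with h' | rfl
      · rw [hB s h'] at hv
        left
        rw [← h.bef]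
        exact ⟨s, h', hv⟩
      · rw [hBn] at hv
        exact Or.inr hv
    · rintro (hv | hv)
      · rw [← h.bef] at hv
        obtain ⟨s, hs, hv⟩ := hv
        exact ⟨s, by omega, by rw [hB s hs]; exact hv⟩
      · exact ⟨n', by omega, by rw [hBn]; exact hv⟩
  · intro s hs
    rcases hcase s hs with h' | rfl
    · rw [adh_update h']; exact h.card s h'
    · rw [hadn]; exact h1
  · intro s hs
    rcases hcase s hs with h' | rfl
    · rw [adh_update h']; exact h.clique s h'
    · rw [hadn]; exact h2
  · intro s hs u v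
    rcases hcase s hs with h' | rfl
    · rw [hB s h', bef_update h'.le]; exact h.sep s h' u v
    · rw [hBn, hbn]; exact h3 u v
  · intro s hs
    rcases hcase s hs with h' | rfl
    · rw [hφ s h']; exact h.lt s h'
    · rw [hφn]; omega
  · intro s s' hss hs'
    rcases hcase s' hs' with h' | rfl
    · rw [hφ s' h', hφ s (by omega)]; exact h.mono s s' hss h'
    · rw [hφn]
      rcases hcase s (by omega) with h' | rfl
      · rw [hφ s h']; have := h.lt s h'; omega
      · rw [hφn]
  · intro s hs
    rcases hcase s hs with h' | rfl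
    · rw [hB s h', bef_update h'.le]; exact h.new s h'
    · rw [hBn, hbn]; exact h4
  · intro s hs
    rcases hcase s hs with h' | rfl
    · rw [hB s h', hφ s h']; exact h.sub s h'
    · rw [hBn, hφn]; exact h5
  · intro s hs
    rcases hcase s hs with h' | rfl
    · rw [hB s h', hφ s h', hτ s h', adh_update h', bef_update h'.le]; exact h.typ s h'
    · rw [hBn, hφn, hτn, hadn, hbn]; exact h6
  · intro s hs s' hs'
    rcases hcase s hs with h' | rfl
    · rw [hφ s h', hφ s' (by omega), hτ s h', hτ s' (by omega)]
      exact h.ord s h' s' hs'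
    · rw [hφn, hφ s' hs', hτn, hτ s' hs']
      exact fun h8 h9 => h7 h9 s' hs' h8
  · intro t ht v hv
    obtain ⟨s, hs, h8, h9⟩ := h.cov t ht v hv
    exact ⟨s, by omega, by rw [hφ s hs]; exact h8, by rw [hB s hs]; exact h9⟩
  · intro t ht hty
    rcases h.mrk t ht hty with h8 | ⟨s, hs, h8, h9, h10⟩
    · exact Or.inl h8
    · exact Or.inr ⟨s, by omega, by rw [hφ s hs]; exact h8, by rw [hτ s hs]; exact h9,
        by rw [hB s hs]; exact h10⟩

/-- the first bag with a given vertex is unique -/
theorem new_unique {B : ℕ → Set V} {t t' : ℕ} {x : V} (h1 : x ∈ B t) (h2 : x ∉ Bef B t)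
    (h3 : x ∈ B t') (h4 : x ∉ Bef B t') : t = t' := by
  by_contra hne
  rcases Nat.lt_or_gt_of_ne hne with h | h
  · exact h4 ⟨t, h, h1⟩
  · exact h2 ⟨t', h, h3⟩

/-- the enumeration of a finite set -/
theorem enum [Finite V] (v0 : V) (S : Set V) : ∃ v : ℕ → V, (∀ i < S.ncard, v i ∈ S) ∧
    (∀ i < S.ncard, ∀ j < S.ncard, v i = v j → i = j) ∧ ∀ x ∈ S, ∃ i < S.ncard, v i = x := by
  classical
  have hf : S.Finite := Set.toFinite S
  have hc : hf.toFinset.card = S.ncard := (Set.ncard_eq_toFinset_card S hf).symm
  let e := hf.toFinset.equivFinOfCardEq hc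
  refine ⟨fun i => if hi : i < S.ncard then ((e.symm ⟨i, hi⟩ : hf.toFinset) : V) else v0,
    fun i hi => ?_, fun i hi j hj hij => ?_, fun x hx => ?_⟩
  · dsimp only
    rw [dif_pos hi]
    exact hf.mem_toFinset.1 (e.symm ⟨i, hi⟩).2
  · dsimp only at hij
    rw [dif_pos hi, dif_pos hj] at hij
    have := e.symm.injective (Subtype.ext hij)
    exact congrArg Fin.val this
  · refine ⟨(e ⟨x, hf.mem_toFinset.2 hx⟩).1, (e ⟨x, hf.mem_toFinset.2 hx⟩).2, ?_⟩
    dsimp only
    rw [dif_pos (e ⟨x, hf.mem_toFinset.2 hx⟩).2]
    simp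

/-- **[G4] REFINE, with marks** -/
theorem fine (hE : ElimStmt) [Finite V] {H : SimpleGraph V} {n w j : ℕ} {B : ℕ → Set V}
    (ty : ℕ → Prop) (M : ℕ → Set V) (h : Glued 3 H n B)
    (hT : ∀ t < n, ty t → TreewidthLE (H.induce (B t)) w)
    (hM : ∀ t < n, ¬ ty t → M t ⊆ B t ∧ (M t).ncard ≤ j) :
    ∃ (H' : SimpleGraph V) (n' : ℕ) (B' : ℕ → Set V) (φ : ℕ → ℕ) (τ : ℕ → Prop), H ≤ H' ∧
      Glued (max (3 + j) w) H' n' B' ∧ (∀ s < n', φ s < n) ∧
      (∀ s s', s ≤ s' → s' < n' → φ s ≤ φ s') ∧ (∀ s < n', ∃ v ∈ B' s, v ∉ Bef B' s) ∧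
      (∀ s < n', B' s ⊆ B (φ s)) ∧
      (∀ s < n', ¬ τ s → ¬ ty (φ s) ∧ B' s = B (φ s)) ∧
      (∀ s < n', τ s → ∃ v, v ∉ Adh B' s ∧ B' s = insert v (Adh B' s)) ∧
      (∀ s < n', ∀ s' < s, φ s' = φ s → τ s → τ s') ∧
      (∀ t < n, ∀ v ∈ B t, ∃ s < n', φ s ≤ t ∧ v ∈ B' s) ∧
      (∀ t < n, ¬ ty t → M t ⊆ Adh B t ∨ ∃ s < n', φ s = t ∧ τ s ∧ M t ⊆ B' s) := by
  classical
  rcases isEmpty_or_nonempty V with hV | ⟨⟨v0⟩⟩
  · exact ⟨H, 0, fun _ => ∅, fun _ => 0, fun _ => True, le_rfl,
      ⟨fun v => (hV.false v).elim, by omega, by omega, by omega⟩, by omega, by omega, by omega,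
      by omega, by omega, by omega, by omega, fun t _ v => (hV.false v).elim,
      fun t _ _ => Or.inl fun v _ => (hV.false v).elim⟩
  -- the orders of the pieces, in `V`
  have hord : ∀ t, ∃ (m : ℕ) (v : ℕ → V) (N : ℕ → Set V), t < n →
      (∀ i < m, v i ∈ B t ∧ v i ∉ Bef B t) ∧ (∀ i < m, ∀ j < m, v i = v j → i = j) ∧
      (ty t → ∀ x ∈ B t, x ∉ Bef B t → ∃ i < m, v i = x) ∧
      (∀ i < m, N i ⊆ B t) ∧
      (∀ i < m, ∀ y ∈ N i, y ∈ Bef B t ∨ ∃ j < i, v j = y) ∧
      (∀ i < m, (N i).ncard ≤ max (3 + j) w) ∧
      (∀ i < m, ∀ a ∈ N i, ∀ b ∈ N i, a ≠ b →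
        (a ∈ Adh B t ∧ b ∈ Adh B t) ∨ (∃ j < i, v j = a ∧ b ∈ N j) ∨ ∃ j < i, v j = b ∧ a ∈ N j) ∧
      (∀ i < m, ∀ y ∈ B t, H.Adj (v i) y → (y ∈ Bef B t ∨ ∃ j < i, v j = y) → y ∈ N i) ∧
      (¬ ty t → m ≤ j ∧ (∀ i < m, N i = Adh B t ∪ {x | ∃ l < i, v l = x}) ∧
        M t ⊆ Adh B t ∪ {x | ∃ l < m, v l = x}) := by
    intro t
    by_cases ht : t < n
    · by_cases hty : ty t
      · by_cases hBt : Nonempty (B t)
        · obtain ⟨m, v, N, a1, a2, a3, a4, a5, a6, a7⟩ :=
            hE (B t) (H.induce (B t)) w {x | (x : V) ∈ Adh B t} (hT t ht hty)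
              (fun u hu v hv huv => h.clique t ht u hu v hv fun e => huv (Subtype.ext e))
          refine ⟨m, fun i => v i, fun i => Subtype.val '' N i, fun _ => ⟨?_, ?_, ?_, ?_, ?_, ?_,
            ?_, ?_, fun hno => (hno hty).elim⟩⟩
          · intro i hi
            exact ⟨(v i).2, fun hb => a1 i hi ⟨(v i).2, hb⟩⟩
          · intro i hi j hj hij
            exact a2 i hi j hj (Subtype.ext hij)
          · intro _ x hx hx'
            obtain ⟨i, hi, hix⟩ := a3 ⟨x, hx⟩ fun hb => hx' hb.2
            exact ⟨i, hi, congrArg Subtype.val hix⟩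
          · rintro i hi _ ⟨y, _, rfl⟩
            exact y.2
          · rintro i hi _ ⟨y, hy, rfl⟩
            rcases a4 i hi y hy with h1 | ⟨j, hj, h1⟩
            · exact Or.inl h1.2
            · exact Or.inr ⟨j, hj, congrArg Subtype.val h1⟩
          · intro i hi
            exact ((Set.ncard_image_le (Set.toFinite _)).trans (a5 i hi)).trans (le_max_right _ _)
          · rintro i hi _ ⟨a, ha, rfl⟩ _ ⟨b, hb, rfl⟩ hab
            rcases a6 i hi a ha b hb (fun e => hab (congrArg Subtype.val e)) with h1 |
              ⟨j, hj, h1, h2⟩ | ⟨j, hj, h1, h2⟩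
            · exact Or.inl h1
            · exact Or.inr (Or.inl ⟨j, hj, congrArg Subtype.val h1, ⟨b, h2, rfl⟩⟩)
            · exact Or.inr (Or.inr ⟨j, hj, congrArg Subtype.val h1, ⟨a, h2, rfl⟩⟩)
          · intro i hi y hy hadj hor
            refine ⟨⟨y, hy⟩, a7 i hi ⟨y, hy⟩ hadj ?_, rfl⟩
            rcases hor with h1 | ⟨j, hj, h1⟩
            · exact Or.inl ⟨hy, h1⟩
            · exact Or.inr ⟨j, hj, Subtype.ext h1⟩
        · refine ⟨0, fun _ => v0, fun _ => ∅, fun _ => ⟨by omega, by omega, ?_, by omega,
              by omega, by omega, by omega, by omega, fun hno => (hno hty).elim⟩⟩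
          intro _ x hx
          exact (hBt ⟨⟨x, hx⟩⟩).elim
      · -- the marks
        obtain ⟨hMB, hMc⟩ := hM t ht hty
        obtain ⟨v, b1, b2, b3⟩ := enum v0 (M t \ Bef B t)
        have hmj : (M t \ Bef B t).ncard ≤ j :=
          (Set.ncard_le_ncard Set.diff_subset (Set.toFinite _)).trans hMc
        have hsub : ∀ i ≤ (M t \ Bef B t).ncard,
            (Adh B t ∪ {x | ∃ l < i, v l = x}).ncard ≤ 3 + i := by
          intro i _
          refine (Set.ncard_union_le _ _).trans (Nat.add_le_add (h.card t ht) ?_)
          have e1 : {x | ∃ l < i, v l = x} = v '' (Set.Iio i) := by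
            ext x
            constructor
            · rintro ⟨l, hl, hx⟩
              exact ⟨l, hl, hx⟩
            · rintro ⟨l, hl, hx⟩
              exact ⟨l, hl, hx⟩
          rw [e1]
          refine (Set.ncard_image_le (Set.finite_Iio i)).trans ?_
          rw [Set.ncard_eq_toFinset_card' (Set.Iio i)]
          simp
        refine ⟨(M t \ Bef B t).ncard, v, fun i => Adh B t ∪ {x | ∃ l < i, v l = x},
          fun _ => ⟨?_, b2, fun hno => (hty hno).elim, ?_, ?_, ?_, ?_, ?_, fun _ => ⟨hmj,
          fun i _ => rfl, ?_⟩⟩⟩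
        · intro i hi
          exact ⟨hMB (b1 i hi).1, (b1 i hi).2⟩
        · rintro i hi y (hy | ⟨l, hl, hy⟩)
          · exact hy.1
          · rw [← hy]
            exact hMB (b1 l (by omega)).1
        · rintro i hi y (hy | ⟨l, hl, hy⟩)
          · exact Or.inl hy.2
          · exact Or.inr ⟨l, hl, hy⟩
        · intro i hi
          exact (hsub i hi.le).trans (le_trans (by omega) (le_max_left _ _))
        · rintro i hi a (ha | ⟨l, hl, ha⟩) b (hb | ⟨l', hl', hb⟩) hab
          · exact Or.inl ⟨ha, hb⟩
          · exact Or.inr (Or.inr ⟨l', hl', hb, Or.inl ha⟩)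
          · exact Or.inr (Or.inl ⟨l, hl, ha, Or.inl hb⟩)
          · rcases Nat.lt_trichotomy l l' with h1 | h1 | h1
            · exact Or.inr (Or.inr ⟨l', hl', hb, Or.inr ⟨l, h1, ha⟩⟩)
            · exact (hab (by rw [← ha, ← hb, h1])).elim
            · exact Or.inr (Or.inl ⟨l, hl, ha, Or.inr ⟨l', h1, hb⟩⟩)
        · rintro i hi y hy hadj (hy' | hy')
          · exact Or.inl ⟨hy, hy'⟩
          · exact Or.inr hy'
        · intro x hx
          by_cases hxb : x ∈ Bef B t
          · exact Or.inl ⟨hMB hx, hxb⟩
          · exact Or.inr (b3 x ⟨hx, hxb⟩)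
    · exact ⟨0, fun _ => v0, fun _ => ∅, fun h1 => (ht h1).elim⟩
  choose m v N hN using hord
  -- the extra edges
  obtain ⟨X, hX⟩ : ∃ X : V → V → Prop, X = fun a b => ∃ t, t < n ∧ ∃ i < m t,
    a = v t i ∧ b ∈ N t i := ⟨_, rfl⟩
  have hXne : ∀ a b, X a b → a ≠ b := by
    intro a b hab
    rw [hX] at hab
    obtain ⟨t, ht, i, hi, rfl, hb⟩ := hab
    obtain ⟨a1, a2, a3, a4, a5, a6, a7, a8, a9⟩ := hN t ht
    rintro rfl
    rcases a5 i hi _ hb with h1 | ⟨j, hj, h1⟩
    · exact (a1 i hi).2 h1
    · have := a2 j (by omega) i hi h1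
      omega
  have hXt : ∀ a b, X a b → ∃ t, t < n ∧ (∃ i < m t, a = v t i) ∧ a ∈ B t ∧ a ∉ Bef B t ∧
      b ∈ B t := by
    intro a b hab
    rw [hX] at hab
    obtain ⟨t, ht, i, hi, rfl, hb⟩ := hab
    obtain ⟨a1, a2, a3, a4, a5, a6, a7, a8, a9⟩ := hN t ht
    exact ⟨t, ht, ⟨i, hi, rfl⟩, (a1 i hi).1, (a1 i hi).2, a4 i hi hb⟩
  obtain ⟨H', hH'⟩ : ∃ H' : SimpleGraph V, ∀ a b, H'.Adj a b ↔ H.Adj a b ∨ X a b ∨ X b a :=
    ⟨{ Adj := fun a b => H.Adj a b ∨ X a b ∨ X b a
       symm := ⟨fun a b hab => by
        rcases hab with h1 | h1 | h1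
        · exact Or.inl h1.symm
        · exact Or.inr (Or.inr h1)
        · exact Or.inr (Or.inl h1)⟩
       loopless := ⟨fun a hab => by
        rcases hab with h1 | h1 | h1
        · exact H.irrefl h1
        · exact hXne a a h1 rfl
        · exact hXne a a h1 rfl⟩ }, fun a b => Iff.rfl⟩
  have hle : H ≤ H' := fun a b hab => (hH' a b).2 (Or.inl hab)
  -- the steps
  have main : ∀ M' ≤ n, ∃ (n' : ℕ) (B' : ℕ → Set V) (φ : ℕ → ℕ) (τ : ℕ → Prop),
      Pref H' (max (3 + j) w) ty B M M' M' n' B' φ τ (Bef B M') := by
    intro M'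
    induction M' with
    | zero =>
      intro _
      refine ⟨0, fun _ => ∅, fun _ => 0, fun _ => True, ⟨?_, by omega, by omega, by omega,
        by omega, by omega, by omega, by omega, by omega, by omega, by omega, by omega⟩⟩
      ext x
      constructor <;> rintro ⟨s, hs, _⟩ <;> omega
    | succ M' ih =>
      intro hM'
      obtain ⟨n', B', φ, τ, hP⟩ := ih (by omega)
      have hBs : Bef B (M' + 1) = Bef B M' ∪ B M' := by
        ext x
        constructor
        · rintro ⟨s, hs, hx⟩
          by_cases hsM : s = M'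
          · right; rw [← hsM]; exact hx
          · left; exact ⟨s, by omega, hx⟩
        · rintro (⟨s, hs, hx⟩ | hx)
          · exact ⟨s, by omega, hx⟩
          · exact ⟨M', by omega, hx⟩
      have hP1 : Pref H' (max (3 + j) w) ty B M M' (M' + 1) n' B' φ τ (Bef B M') :=
        ⟨hP.bef, hP.card, hP.clique, hP.sep, fun s hs => (hP.lt s hs).trans (by omega), hP.mono,
          hP.new, hP.sub, hP.typ, hP.ord, hP.cov, hP.mrk⟩
      -- from the middle to the end
      have fin : ∀ (n'' : ℕ) (B'' : ℕ → Set V) (φ' : ℕ → ℕ) (τ' : ℕ → Prop),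
          Pref H' (max (3 + j) w) ty B M M' (M' + 1) n'' B'' φ' τ' (Bef B (M' + 1)) →
          (¬ ty M' → M M' ⊆ Adh B M' ∨ ∃ s < n'', φ' s = M' ∧ τ' s ∧ M M' ⊆ B'' s) →
          Pref H' (max (3 + j) w) ty B M (M' + 1) (M' + 1) n'' B'' φ' τ' (Bef B (M' + 1)) := by
        intro n'' B'' φ' τ' hQ hmk
        refine ⟨hQ.bef, hQ.card, hQ.clique, hQ.sep, hQ.lt, hQ.mono, hQ.new, hQ.sub, hQ.typ,
          hQ.ord, fun t ht x hx => ?_, fun t ht hty => ?_⟩
        · by_cases htM : t < M'
          · exact hQ.cov t htM x hx
          · have htM' : t = M' := by omega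
            subst htM'
            have hxb : x ∈ Bef B'' n'' := by
              rw [hQ.bef, hBs]; exact Or.inr hx
            obtain ⟨s, hs, hxs⟩ := hxb
            have := hQ.lt s hs
            exact ⟨s, hs, by omega, hxs⟩
        · by_cases htM : t < M'
          · exact hQ.mrk t htM hty
          · have htM' : t = M' := by omega
            subst htM'
            exact hmk hty
      obtain ⟨a1, a2, a3, a4, a5, a6, a7, a8, a9⟩ := hN M' (by omega)
      -- the chain
      have inner : ∀ j' ≤ m M', ∃ (n'' : ℕ) (B'' : ℕ → Set V) (φ' : ℕ → ℕ) (τ' : ℕ → Prop),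
          Pref H' (max (3 + j) w) ty B M M' (M' + 1) n'' B'' φ' τ'
            (Bef B M' ∪ {x | ∃ l < j', v M' l = x}) ∧ (∀ s < n'', φ' s = M' → τ' s) ∧
          (0 < j' → ∃ s < n'', φ' s = M' ∧ τ' s ∧
            B'' s = insert (v M' (j' - 1)) (N M' (j' - 1))) := by
        intro j'
        induction j' with
        | zero =>
          intro _
          refine ⟨n', B', φ, τ, ?_, fun s hs hsM => ?_, by omega⟩
          · have : (Bef B M' ∪ {x | ∃ l < 0, v M' l = x}) = Bef B M' := by
              ext x
              constructor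
              · rintro (hx | ⟨l, hl, _⟩)
                · exact hx
                · omega
              · exact Or.inl
            rw [this]
            exact hP1
          · have := hP.lt s hs
            omega
        | succ j' ihj =>
          intro hj
          obtain ⟨n'', B'', φ', τ', hQ, hQτ, -⟩ := ihj (by omega)
          have hjm : j' < m M' := by omega
          have hvn : v M' j' ∉ Bef B M' ∪ {x | ∃ l < j', v M' l = x} := by
            rintro (hx | ⟨l, hl, hx⟩)
            · exact (a1 j' hjm).2 hx
            · have := a2 l (by omega) j' hjm hx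
              omega
          have hND : N M' j' ⊆ Bef B M' ∪ {x | ∃ l < j', v M' l = x} := by
            intro y hy
            exact a5 j' hjm y hy
          have hXD : insert (v M' j') (N M' j') ∩ (Bef B M' ∪ {x | ∃ l < j', v M' l = x}) =
              N M' j' := by
            ext x
            constructor
            · rintro ⟨hx | hx, hx'⟩
              · rw [hx] at hx'; exact (hvn hx').elim
              · exact hx
            · exact fun hx => ⟨Or.inr hx, hND hx⟩
          have hst := hQ.snoc (insert (v M' j') (N M' j')) True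
            (by rw [hXD]; exact a6 j' hjm)
            (by
              rw [hXD]
              intro a ha b hb hab
              rcases a7 j' hjm a ha b hb hab with h1 | ⟨l, hl, h1, h2⟩ | ⟨l, hl, h1, h2⟩
              · exact hle (h.clique M' (by omega) a h1.1 b h1.2 hab)
              · refine (hH' a b).2 (Or.inr (Or.inl ?_))
                rw [hX]
                exact ⟨M', by omega, l, by omega, h1.symm, h2⟩
              · refine (hH' a b).2 (Or.inr (Or.inr ?_))
                rw [hX]
                exact ⟨M', by omega, l, by omega, h1.symm, h2⟩)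
            (by
              intro a b ha haD hbD hbX hadj
              have haj : a = v M' j' := by
                rcases ha with ha | ha
                · exact ha
                · exact (haD (hND ha)).elim
              subst haj
              rcases (hH' _ _).1 hadj with h1 | h1 | h1
              · by_cases hbB : b ∈ B M'
                · exact hbX (Or.inr (a8 j' hjm b hbB h1 hbD))
                · rcases hbD with hbD | ⟨l, hl, hbl⟩
                  · exact h.sep M' (by omega) _ b (a1 j' hjm).1 (a1 j' hjm).2 hbD hbB h1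
                  · rw [← hbl] at hbB
                    exact hbB (a1 l (by omega)).1
              · rw [hX] at h1
                obtain ⟨t, ht, i, hi, h2, h3⟩ := h1
                obtain ⟨c1, c2, c3, c4, c5, c6, c7, c8, c9⟩ := hN t ht
                have htM : t = M' := by
                  refine new_unique (c1 i hi).1 (c1 i hi).2 ?_ ?_
                  · rw [← h2]; exact (a1 j' hjm).1
                  · rw [← h2]; exact (a1 j' hjm).2
                subst htM
                have hij := a2 j' hjm i hi h2
                subst hij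
                exact hbX (Or.inr h3)
              · rw [hX] at h1
                obtain ⟨t, ht, i, hi, h2, h3⟩ := h1
                obtain ⟨c1, c2, c3, c4, c5, c6, c7, c8, c9⟩ := hN t ht
                rcases hbD with hbD | ⟨l, hl, hbl⟩
                · obtain ⟨s, hs, hbs⟩ := hbD
                  have hts : t ≤ s := by
                    by_contra hlt
                    push Not at hlt
                    rw [h2] at hbs
                    exact (c1 i hi).2 ⟨s, hlt, hbs⟩
                  exact (a1 j' hjm).2 ⟨t, by omega, c4 i hi h3⟩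
                · have htM : t = M' := by
                    refine new_unique (c1 i hi).1 (c1 i hi).2 ?_ ?_
                    · rw [← h2, ← hbl]; exact (a1 l (by omega)).1
                    · rw [← h2, ← hbl]; exact (a1 l (by omega)).2
                  subst htM
                  have hil := a2 l (by omega) i hi (hbl.trans h2)
                  subst hil
                  rcases a5 l hi _ h3 with h4 | ⟨l', hl', h4⟩
                  · exact (a1 j' hjm).2 h4
                  · have := a2 l' (by omega) j' hjm h4
                    omega)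
            ⟨v M' j', Or.inl rfl, hvn⟩
            (by
              rintro x (hx | hx)
              · rw [hx]; exact (a1 j' hjm).1
              · exact a4 j' hjm hx)
            (Or.inr ⟨trivial, v M' j', hvn, by rw [hXD]⟩)
            (fun _ s hs hsM => hQτ s hs hsM)
          refine ⟨n'' + 1, Function.update B'' n'' (insert (v M' j') (N M' j')),
            Function.update φ' n'' M', Function.update τ' n'' True, ?_, ?_, ?_⟩
          · have hset : (Bef B M' ∪ {x | ∃ l < j' + 1, v M' l = x}) =
                (Bef B M' ∪ {x | ∃ l < j', v M' l = x}) ∪ insert (v M' j') (N M' j') := by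
              ext x
              constructor
              · rintro (hx | ⟨l, hl, hx⟩)
                · exact Or.inl (Or.inl hx)
                · by_cases hlj : l = j'
                  · right; left; rw [← hx, hlj]
                  · left; right; exact ⟨l, by omega, hx⟩
              · rintro ((hx | ⟨l, hl, hx⟩) | (hx | hx))
                · exact Or.inl hx
                · exact Or.inr ⟨l, by omega, hx⟩
                · exact Or.inr ⟨j', by omega, hx.symm⟩
                · rcases hND hx with hx | ⟨l, hl, hx⟩
                  · exact Or.inl hx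
                  · exact Or.inr ⟨l, by omega, hx⟩
            rw [hset]
            exact hst
          · intro s hs hsM
            by_cases hsn : s = n''
            · rw [hsn, Function.update_self]
              trivial
            · rw [Function.update_of_ne hsn] at hsM ⊢
              exact hQτ s (by omega) hsM
          · intro _
            refine ⟨n'', by omega, Function.update_self _ _ _, ?_, ?_⟩
            · rw [Function.update_self]
              trivial
            · rw [Function.update_self]
              rfl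
      obtain ⟨n'', B'', φ', τ', hQ, hQτ, hQl⟩ := inner (m M') le_rfl
      by_cases hty : ty M'
      · -- type T
        refine ⟨n'', B'', φ', τ', fin _ _ _ _ ?_ fun hno => (hno hty).elim⟩
        have hset : Bef B (M' + 1) = Bef B M' ∪ {x | ∃ l < m M', v M' l = x} := by
          rw [hBs]
          ext x
          constructor
          · rintro (hx | hx)
            · exact Or.inl hx
            · by_cases hxb : x ∈ Bef B M'
              · exact Or.inl hxb
              · exact Or.inr (a3 hty x hx hxb)
          · rintro (hx | ⟨l, hl, hx⟩)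
            · exact Or.inl hx
            · right; rw [← hx]; exact (a1 l hl).1
        rw [hset]
        exact hQ
      · -- type P
        obtain ⟨hmj, hNe, hMm⟩ := a9 hty
        -- the marks are in the last bag of the chain
        have hmk : M M' ⊆ Adh B M' ∨ ∃ s < n'', φ' s = M' ∧ τ' s ∧ M M' ⊆ B'' s := by
          rcases Nat.eq_zero_or_pos (m M') with h0 | h0
          · left
            intro x hx
            rcases hMm hx with h1 | ⟨l, hl, _⟩
            · exact h1
            · omega
          · right
            obtain ⟨s, hs, h1, h2, h3⟩ := hQl h0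
            refine ⟨s, hs, h1, h2, fun x hx => ?_⟩
            rw [h3, hNe _ (by omega)]
            rcases hMm hx with h4 | ⟨l, hl, h4⟩
            · exact Or.inr (Or.inl h4)
            · by_cases hlm : l = m M' - 1
              · left; rw [← h4, hlm]
              · exact Or.inr (Or.inr ⟨l, by omega, h4⟩)
        by_cases hnew : ∃ x ∈ B M', x ∉ Bef B M' ∪ {x | ∃ l < m M', v M' l = x}
        · have hXD : B M' ∩ (Bef B M' ∪ {x | ∃ l < m M', v M' l = x}) =
              Adh B M' ∪ {x | ∃ l < m M', v M' l = x} := by
            ext x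
            constructor
            · rintro ⟨hx, hx' | hx'⟩
              · exact Or.inl ⟨hx, hx'⟩
              · exact Or.inr hx'
            · rintro (hx | ⟨l, hl, hx⟩)
              · exact ⟨hx.1, Or.inl hx.2⟩
              · exact ⟨by rw [← hx]; exact (a1 l hl).1, Or.inr ⟨l, hl, hx⟩⟩
          have hcl : ∀ l < m M', ∀ x ∈ Adh B M', H'.Adj (v M' l) x := by
            intro l hl x hx
            refine (hH' _ _).2 (Or.inr (Or.inl ?_))
            rw [hX]
            refine ⟨M', by omega, l, hl, rfl, ?_⟩
            rw [hNe l hl]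
            exact Or.inl hx
          have hcl2 : ∀ l < m M', ∀ l' < l, H'.Adj (v M' l) (v M' l') := by
            intro l hl l' hl'
            refine (hH' _ _).2 (Or.inr (Or.inl ?_))
            rw [hX]
            refine ⟨M', by omega, l, hl, rfl, ?_⟩
            rw [hNe l hl]
            exact Or.inr ⟨l', hl', rfl⟩
          have hst := hQ.snoc (B M') False
            (by
              rw [hXD]
              refine le_trans ?_ (le_max_left _ _)
              refine (Set.ncard_union_le _ _).trans (Nat.add_le_add (h.card M' (by omega)) ?_)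
              have e1 : {x | ∃ l < m M', v M' l = x} = v M' '' (Set.Iio (m M')) := by
                ext x
                constructor
                · rintro ⟨l, hl, hx⟩
                  exact ⟨l, hl, hx⟩
                · rintro ⟨l, hl, hx⟩
                  exact ⟨l, hl, hx⟩
              rw [e1]
              refine (Set.ncard_image_le (Set.finite_Iio _)).trans ?_
              rw [Set.ncard_eq_toFinset_card' (Set.Iio (m M'))]
              simpa using hmj)
            (by
              rw [hXD]
              rintro a (ha | ⟨l, hl, ha⟩) b (hb | ⟨l', hl', hb⟩) hab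
              · exact hle (h.clique M' (by omega) a ha b hb hab)
              · rw [← hb]
                exact (hcl l' hl' a ha).symm
              · rw [← ha]
                exact hcl l hl b hb
              · rcases Nat.lt_trichotomy l l' with h1 | h1 | h1
                · rw [← ha, ← hb]
                  exact (hcl2 l' hl' l h1).symm
                · exact (hab (by rw [← ha, ← hb, h1])).elim
                · rw [← ha, ← hb]
                  exact hcl2 l hl l' h1)
            (by
              intro a b ha haD hbD hbX hadj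
              have hbD' : b ∈ Bef B M' := by
                rcases hbD with hbD | ⟨l, hl, hbl⟩
                · exact hbD
                · exact (hbX (by rw [← hbl]; exact (a1 l hl).1)).elim
              have haD' : a ∉ Bef B M' := fun hh => haD (Or.inl hh)
              rcases (hH' _ _).1 hadj with h1 | h1 | h1
              · exact h.sep M' (by omega) a b ha haD' hbD' hbX h1
              · obtain ⟨t, ht, ⟨i, hi, hai⟩, h2, h3, h4⟩ := hXt _ _ h1
                have htM := new_unique h2 h3 ha haD'
                subst htM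
                exact haD (Or.inr ⟨i, hi, hai.symm⟩)
              · obtain ⟨t, ht, _, h2, h3, h4⟩ := hXt _ _ h1
                obtain ⟨s, hs, hbs⟩ := hbD'
                have hts : t ≤ s := by
                  by_contra hlt
                  push Not at hlt
                  exact h3 ⟨s, hlt, hbs⟩
                exact haD' ⟨t, by omega, h4⟩)
            hnew le_rfl (Or.inl ⟨not_false, hty, rfl⟩) (fun hf => hf.elim)
          refine ⟨n'' + 1, Function.update B'' n'' (B M'), Function.update φ' n'' M',
            Function.update τ' n'' False, fin _ _ _ _ ?_ fun _ => ?_⟩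
          · have hset : Bef B (M' + 1) =
                (Bef B M' ∪ {x | ∃ l < m M', v M' l = x}) ∪ B M' := by
              rw [hBs]
              ext x
              constructor
              · rintro (hx | hx)
                · exact Or.inl (Or.inl hx)
                · exact Or.inr hx
              · rintro ((hx | ⟨l, hl, hx⟩) | hx)
                · exact Or.inl hx
                · right; rw [← hx]; exact (a1 l hl).1
                · exact Or.inr hx
            rw [hset]
            exact hst
          · rcases hmk with h1 | ⟨s, hs, h1, h2, h3⟩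
            · exact Or.inl h1
            · right
              refine ⟨s, by omega, ?_, ?_, ?_⟩
              · rw [Function.update_of_ne (by omega)]; exact h1
              · rw [Function.update_of_ne (by omega)]; exact h2
              · rw [Function.update_of_ne (by omega)]; exact h3
        · push Not at hnew
          refine ⟨n'', B'', φ', τ', fin _ _ _ _ ?_ fun _ => hmk⟩
          have hset : Bef B (M' + 1) = Bef B M' ∪ {x | ∃ l < m M', v M' l = x} := by
            rw [hBs]
            ext x
            constructor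
            · rintro (hx | hx)
              · exact Or.inl hx
              · exact hnew x hx
            · rintro (hx | ⟨l, hl, hx⟩)
              · exact Or.inl hx
              · right; rw [← hx]; exact (a1 l hl).1
          rw [hset]
          exact hQ
  obtain ⟨n', B', φ, τ, hP⟩ := main n le_rfl
  refine ⟨H', n', B', φ, τ, hle, ⟨?_, hP.card, hP.clique, hP.sep⟩, hP.lt, hP.mono, hP.new,
    hP.sub, ?_, ?_, hP.ord, hP.cov, hP.mrk⟩
  · intro x
    obtain ⟨t, ht, hx⟩ := h.cover x
    obtain ⟨s, hs, _, hxs⟩ := hP.cov t ht x hx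
    exact ⟨s, hs, hxs⟩
  · intro s hs hno
    rcases hP.typ s hs with h1 | h1
    · exact h1.2
    · exact (hno h1.1).elim
  · intro s hs hyes
    rcases hP.typ s hs with h1 | h1
    · exact (h1.1 hyes).elim
    · obtain ⟨v, h2, h3⟩ := h1.2
      exact ⟨v, fun h4 => h2 h4.2, h3⟩

/-- the region of the root adhesion `Adh B (φ s)`: the second clause of helper655's `Region` -/
theorem step {n m : ℕ} {B C : ℕ → Set V} {φ : ℕ → ℕ} {τ : ℕ → Prop}
    (hmono : ∀ s s', s ≤ s' → s' < m → φ s ≤ φ s') (hsub : ∀ s < m, C s ⊆ B (φ s))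
    (hord : ∀ s < m, ∀ s' < s, φ s' = φ s → τ s → τ s') (Y : BTree m C) :
    ∀ s < m, τ s → 0 < s → Adh C s ⊆ Adh B (φ s) ∨
      (τ (Y.par s) ∧ Adh B (φ (Y.par s)) = Adh B (φ s)) := by
  intro s hs hT h0
  by_cases hsb : Adh C s ⊆ Adh B (φ s)
  · exact Or.inl hsb
  · right
    rw [Set.not_subset] at hsb
    obtain ⟨u, hu, hu'⟩ := hsb
    have h1 : u ∈ B (φ s) := hsub s hs hu.1
    have h2 : u ∉ Bef B (φ s) := fun hc => hu' ⟨h1, hc⟩
    have h3 : Y.par s < s := Y.par_lt s h0 hs
    have h4 : u ∈ B (φ (Y.par s)) := hsub _ (h3.trans hs) (Y.adh s h0 hs hu)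
    have h5 : φ (Y.par s) ≤ φ s := hmono _ _ h3.le hs
    have h6 : φ (Y.par s) = φ s := by
      rcases h5.lt_or_eq with h7 | h7
      · exact absurd ⟨_, h7, h4⟩ h2
      · exact h7
    exact ⟨hord s hs _ h3 h6 hT, by rw [h6]⟩

end Vale.Agent.P235.K5.GX.H43
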