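import Vale.Agent.P235.K5.GX.Defs
import Vale.Agent.P235.K5.GX.H43.Ins
import Vale.Agent.P235.K5.SX.H23.Elim

set_option autoImplicit false
set_option linter.all false

/-!
P235, K5 line, GX, row [G4] (helper43): the fine tree with marks, in the letters of K5/GX/Defs.
-/

namespace Vale.Agent.P235.K5.GX.H43

open SimpleGraph Vale.Agent.P235 Vale.Agent.P235.K5

/-- **[G4]** and [S5] together: the final tree -/
theorem refM (w j : ℕ) (V : Type) [Finite V] (H : SimpleGraph V) (n : ℕ) (B : ℕ → Set V)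
    (T : ℕ → Prop) (h : Glued 3 H n B) (hT : ∀ t < n, T t → TreewidthLE (H.induce (B t)) w)
    (M : ℕ → Set V)
    (hM : ∀ t < n, ¬ T t → Adh B t ⊆ M t ∧ M t ⊆ B t ∧ (M t).ncard ≤ j) :
    ∃ (H' : SimpleGraph V) (m : ℕ) (C : ℕ → Set V) (phi : ℕ → ℕ) (big : ℕ → Prop),
      RefM (max (3 + j) w) H n B T M H' m C phi big := by
  obtain ⟨H', m, C, phi, τ, h1, h2, h3, h4, h5, h6, h7, h8, h9, h10, h11⟩ :=
    fine (j := j) (fun W _ _ G w R => SX.H23.elim W G w R) T M h hT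
      (fun t ht hty => ⟨(hM t ht hty).2.1, (hM t ht hty).2.2⟩)
  refine ⟨H', m, C, phi, fun s => ¬ τ s, h1, h2, h4, h3, h5, h6, h10, ?_, ?_, ?_⟩
  · intro s hs hb
    exact h8 s hs (not_not.1 hb)
  · intro s hs hb
    refine ⟨(h7 s hs hb).1, fun s' hs' hphi => ?_⟩
    by_contra hlt
    push Not at hlt
    have hb' : ¬ τ s' := fun ht => hb (h9 s' hs' s hlt hphi.symm ht)
    obtain ⟨v, hv, hv'⟩ := h5 s' hs'
    apply hv'
    refine ⟨s, hlt, ?_⟩
    rw [(h7 s hs hb).2, ← hphi, ← (h7 s' hs' hb').2]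
    exact hv
  · intro t ht hty p hp q hq hpA
    rcases h11 t ht hty with hA | ⟨s, hs, g1, g2, g3⟩
    · exact absurd (hA hp) hpA
    · exact ⟨s, hs, not_not.2 g2, g1, g3 hp, g3 hq⟩

end Vale.Agent.P235.K5.GX.H43
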